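import Vale.Agent.P216.S4.Circ4

/-!
# The groups `F` of a `GSys` with real rotations, for the group `Z/m` with `m = 0`,
`m (m + 1) / 2 = 0` in `k` (used for `m = 4`, characteristic `2`)

For `R : RotS S`, `hm : S4.Ord k m`: `R.circM k hm`, the pairs `R.pstM`, `R.pstQM`, `R.pstWM`,
`R.FM k hm t n = H^n_{S¹}(X_t; k)`, `R.gysM`, `R.TFM` and their naturality.
The pairs are the `S.P`, `S.Q`, `S.W` of the library with `p := m`.
-/

open Set

namespace Vale.Agent.P216.RotS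

open AS B633 DV Circ.PSt S4

variable {Λ : Type} [PseudoMetricSpace Λ] {S : GSys Λ} (R : RotS S)
  (k : Type) [Field k] {m : ℕ} (hm : Ord k m)

/-- the circle data -/
noncomputable def circM : Circ (S.sym k m hm.pos).gcx :=
  circOf (S.sym k m hm.pos) hm (R.isArc k m hm.pos)

theorem circM_A (n : ℕ) (x : (ASK Λ k).K n) : (R.circM k hm).A n x =
    ∑ i ∈ Finset.range m, (i : k) • (((S.sym k m hm.pos).gK n) ^ i) x :=
  circOf_A _ _ _ n x

theorem rcompM : (R.circM k hm).RComp (S.sym k m hm.pos).rev :=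
  circOf_rcomp (S.sym k m hm.pos) hm (R.isArc k m hm.pos)

/-- the pair of `X s` -/
theorem pstM (s : ℝ) : (R.circM k hm).PSt (S.P k m hm.pos s) :=
  S4.pst_PA _ hm _ (S.good k m hm.pos s) (R.arcGood k m hm.pos s)

/-- the pair of `(X t, X s)` -/
theorem pstQM {s t : ℝ} (h : s ≤ t) : (R.circM k hm).PSt (S.Q k m hm.pos h) :=
  S4.pst_PR _ hm _ _ (R.arcGood k m hm.pos t) _ _ _ (R.arcGood k m hm.pos t).maps
    (R.arcGood k m hm.pos s).maps

/-- the pair of `X s` in the world `X t` -/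
theorem pstWM {s t : ℝ} (h : s ≤ t) : (R.circM k hm).PSt (S.W k m hm.pos h) :=
  S4.pst_PM _ hm _ _ (R.arcGood k m hm.pos t) _ (R.arcGood k m hm.pos s).maps

/-- the pair `(A, B)` for closed subsets of `X t` stable under the real rotations -/
theorem pst_setM {t : ℝ} {A B : Set Λ} (hA : (S.sym k m hm.pos).GoodSub (S.X t) A)
    (hB : (S.sym k m hm.pos).GoodSub (S.X t) B) (hBA : B ⊆ A) (hRA : ∀ r, MapsTo (R.R r) A A)
    (hRB : ∀ r, MapsTo (R.R r) B B) :
    (R.circM k hm).PSt (Sym.PR (S.good k m hm.pos t) hA hB hBA) :=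
  S4.pst_PR _ hm _ _ (R.arcGood k m hm.pos t) _ _ _ (fun r _ _ hx => hRA (r / m) hx)
    (fun r _ _ hx => hRB (r / m) hx)

/-- `H^n_{S¹}(X_t; k)` -/
noncomputable abbrev FM (t : ℝ) (n : ℕ) : Submodule k ((S.P k m hm.pos t).FF (n + 1)) :=
  (R.pstM k hm t).F n

/-- the Gysin sequence at the level `t` -/
noncomputable abbrev gysM (t : ℝ) : USeq k (fun n => R.FM k hm t n) (fun n => S.V k t n) :=
  (R.pstM k hm t).gys

omit R in
theorem le_SM {s t : ℝ} (h : s ≤ t) : (S.P k m hm.pos t).S ≤ (S.P k m hm.pos s).S :=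
  Cc_anti (S.mono s t h)

omit R in
theorem le_TM {s t : ℝ} (h : s ≤ t) : (S.P k m hm.pos t).T ≤ (S.P k m hm.pos s).T :=
  Zr_anti (S.mono s t h) (S.mono s t h)

/-- the tower of the `H^n_{S¹}(X_t)` -/
noncomputable def TFM (n : ℕ) : Tower k fun t => R.FM k hm t n where
  ρ s t h := resF (R.pstM k hm t) (R.pstM k hm s) (le_SM k hm h) (le_TM k hm h) n
  ρ_id _ x := resF_refl _ _ _ n x
  ρ_ρ _ _ _ _ _ x := resF_resF _ _ _ _ _ _ _ _ _ n x

theorem TFM_ρ_coe {s t : ℝ} (h : s ≤ t) (n : ℕ) (x : R.FM k hm t n) :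
    ((R.TFM k hm n).ρ s t h x : (S.P k m hm.pos s).FF (n + 1)) =
      GCx.Pair.resF (P := S.P k m hm.pos t) (P' := S.P k m hm.pos s)
        (Cc_anti (S.mono s t h)) (Zr_anti (S.mono s t h) (S.mono s t h)) (n + 1) x.1 :=
  resF_coe _ _ _ _ n x

theorem ρ_uM (n : ℕ) (s t : ℝ) (h : s ≤ t) (x : R.FM k hm t n) :
    (R.TFM k hm (n + 2)).ρ s t h ((R.gysM k hm t).u n x) =
      (R.gysM k hm s).u n ((R.TFM k hm n).ρ s t h x) :=
  (uF_resF (R.pstM k hm t) (R.pstM k hm s) (le_SM k hm h) (le_TM k hm h) n x).symm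

theorem ρ_πM (n : ℕ) (s t : ℝ) (h : s ≤ t) (x : R.FM k hm t n) :
    (TH S k n).ρ s t h ((R.gysM k hm t).π n x) =
      (R.gysM k hm s).π n ((R.TFM k hm n).ρ s t h x) :=
  (πF_resF (R.pstM k hm t) (R.pstM k hm s) (le_SM k hm h) (le_TM k hm h) n x).symm

theorem ρ_dM (n : ℕ) (s t : ℝ) (h : s ≤ t) (x : S.V k t (n + 1)) :
    (R.TFM k hm n).ρ s t h ((R.gysM k hm t).d n x) =
      (R.gysM k hm s).d n ((TH S k (n + 1)).ρ s t h x) :=
  (dF_resH (R.pstM k hm t) (R.pstM k hm s) (le_SM k hm h) (le_TM k hm h) n x).symm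

/-- If `H(X_t) → H(X_s)` is bijective then so is `F(X_t) → F(X_s)`. -/
theorem TFM_bijective {s t : ℝ} (h : s ≤ t)
    (hb : ∀ n, Function.Bijective (AS.res (k := k) (a := fun _ : Unit => S.τ)
      (χ := fun _ : Unit => (-1 : k)) (S.mono s t h) n)) (n : ℕ) :
    Function.Bijective ((R.TFM k hm n).ρ s t h) :=
  resF_bijective (R.pstM k hm t) (R.pstM k hm s) (le_SM k hm h) (le_TM k hm h)
    (fun n => hb n) n

end Vale.Agent.P216.RotS
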