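import Vale.Agent.P216.S4.Lev4
import Vale.Agent.P216.H773.Act4
import Vale.Agent.P216.H941S.Tri4

/-!
# `Z/4` in characteristic `2`: the cochains vanishing on the fixed set of `g ^ 2`

`Y : Sym E k I 4`, `X` good, `B = FixM A Y.g 2` for an invariant `A ⊆ X`: `nm` and the operator
`A` of `circOf` map all cochains into those vanishing on `B`; `Zr X B` is stable under the circle
data; `tri4 : Tri4`.
-/

open Set Finset

namespace Vale.Agent.P216.S4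

open Vale.Agent.P216.AS Vale.Agent.P216.DV Vale.Agent.P216.DV965 Vale.Agent.P216.H773
  Vale.Agent.P216.H941S

section

variable {E : Type} [PseudoMetricSpace E] {k : Type} [Field k] {I : Type} {m : ℕ}
  (Y : Sym E k I m) {X A : Set E}

/-- a cochain which vanishes on all tuples of `B` -/
theorem mem_Zr_of_eq (hE : ∀ {n} (c : (ASK E k).K n), c ∈ (Cc Y.a Y.χ X).S n → ∀ b : ℕ → k,
    sumK Y b n c ∈ (Cc Y.a Y.χ X).S n) {n : ℕ} {c : (ASK E k).K n} {B : Set E} (b : ℕ → k)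
    (hc : c ∈ (Cc Y.a Y.χ X).S n)
    (h0 : ∀ x : Fin (n + 1) → E, (∀ i, x i ∈ B) → sumK Y b n c x = 0) :
    sumK Y b n c ∈ (Zr Y.a Y.χ X B).S n :=
  ⟨hE c hc b, 1, one_pos, fun x hx => h0 x hx.1⟩

theorem sumK_eval (b : ℕ → k) (n : ℕ) (c : (ASK E k).K n) (x : Fin (n + 1) → E) :
    sumK Y b n c x = ∑ i ∈ Finset.range m, b i * c ((Y.g^[i]) ∘ x) := by
  rw [sumK_apply]
  change (∑ i ∈ Finset.range m, b i • (Y.gK n ^ i) c : (Fin (n + 1) → E) → k) x = _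
  rw [Finset.sum_apply]
  refine Finset.sum_congr rfl fun i _ => ?_
  have h3 : (Y.gK n ^ i) c = pbK k (Y.g^[i]) n c := pbK_pow Y.g n i c
  rw [h3]
  rfl

theorem nm_eq_sumK (n : ℕ) (c : (ASK E k).K n) :
    Y.gcx.nm n c = sumK Y (fun _ => (1 : k)) n c := by
  rw [sumK_apply]
  change H609.nm m (Y.gK n) c = _
  unfold H609.nm
  rw [LinearMap.sum_apply]
  exact Finset.sum_congr rfl fun i _ => (one_smul k _).symm

variable {Y}

theorem fix_g (hA : MapsTo Y.g A A) : MapsTo Y.g (FixM A Y.g 2) (FixM A Y.g 2) := fun x hx =>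
  ⟨hA hx.1, by
    have h : Y.g (Y.g x) = x := hx.2
    change Y.g (Y.g (Y.g x)) = Y.g x
    rw [h]⟩

theorem fix_mono {A' : Set E} (h : A ⊆ A') (j : ℕ) : FixM A Y.g j ⊆ FixM A' Y.g j :=
  fun _ hx => ⟨h hx.1, hx.2⟩

theorem fix_arc {H : ℝ → E → E} (hH : Arc Y.g H) (hHA : ∀ r ∈ Icc (0 : ℝ) 1, ∀ x ∈ A, H r x ∈ A) :
    ∀ r ∈ Icc (0 : ℝ) 1, ∀ x ∈ FixM A Y.g 2, H r x ∈ FixM A Y.g 2 := fun r hr x hx =>
  ⟨hHA r hr x hx.1, by
    have h : Y.g (Y.g x) = x := hx.2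
    change Y.g (Y.g (H r x)) = H r x
    rw [← hH.comm r hr, ← hH.comm r hr, h]⟩

/-- the reversal preserves the fixed set -/
theorem fix_r (hr : MapsTo Y.r A A) :
    MapsTo Y.r (FixM A Y.g 2) (FixM A Y.g 2) := fun x hx =>
  ⟨hr hx.1, by
    have h : Y.g (Y.g x) = x := hx.2
    change Y.g (Y.g (Y.r x)) = Y.r x
    calc Y.g (Y.g (Y.r x)) = Y.g (Y.g (Y.r (Y.g (Y.g x)))) := by rw [h]
      _ = Y.g (Y.r (Y.g x)) := by rw [Y.grg]
      _ = Y.r x := Y.grg x⟩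

theorem goodSub_fix (hA : Y.GoodSub X A) : Y.GoodSub X (FixM A Y.g 2) :=
  ⟨fun _ hx => hA.sub hx.1, fix_g hA.mg, fix_r hA.mr⟩

end

/-- the characteristic is `2` -/
theorem Ord.two {k : Type} [Field k] (hm : Ord k 4) : (2 : k) = 0 := by
  have h : ((4 : ℕ) : k) = 2 * 2 := by norm_num
  have h' := hm.cast
  rw [h] at h'
  exact mul_self_eq_zero.mp h'

section Four

variable {E : Type} [PseudoMetricSpace E] {k : Type} [Field k] {I : Type}
  (Y : Sym E k I 4) {X A : Set E}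

/-- `∑ b i gⁱ` vanishes on the tuples fixed by `g ^ 2` if `b 0 + b 2 = 0`, `b 1 + b 3 = 0`. -/
theorem sumK_fix {b : ℕ → k} (h0 : b 0 + b 2 = 0) (h1 : b 1 + b 3 = 0) {n : ℕ}
    (c : (ASK E k).K n) {x : Fin (n + 1) → E} (hx : ∀ i, x i ∈ FixM A Y.g 2) :
    sumK Y b n c x = 0 := by
  have hg : ∀ i, Y.g (Y.g (x i)) = x i := fun i => (hx i).2
  have e2 : Y.g^[2] ∘ x = x := funext hg
  have e3 : Y.g^[3] ∘ x = Y.g^[1] ∘ x := funext fun i => by
    change Y.g (Y.g (Y.g (x i))) = Y.g (x i)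
    rw [hg]
  rw [sumK_eval]
  simp only [Finset.sum_range_succ, Finset.sum_range_zero, zero_add]
  rw [e2, e3]
  have e0 : Y.g^[0] ∘ x = x := rfl
  rw [e0]
  linear_combination c x * h0 + c (Y.g^[1] ∘ x) * h1

variable {Y} (hm : Ord k 4) {H : ℝ → E → E} (hH : Arc Y.g H)

/-- **The data for the localisation**: `S = Cc X`, `A = Zr X (Fix A)`. -/
theorem tri4 (h : Y.Good X) (hX : ArcGood Y H X) (hA : Y.GoodSub X A)
    (hHA : ∀ r ∈ Icc (0 : ℝ) 1, ∀ x ∈ A, H r x ∈ A) :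
    Tri4 (circOf Y hm hH) (Cc Y.a Y.χ X) (Zr Y.a Y.χ X (FixM A Y.g 2)) where
  le := Zr_le_Cc
  hS := st_Cc Y hm hH h hX
  hA := st_Zr Y hm hH h hX (goodSub_fix hA).sub (goodSub_fix hA).mg (fix_arc hH hHA)
  nm_mem n x hx := by
    have h2 := hm.two
    rw [nm_eq_sumK]
    refine mem_Zr_of_eq Y (fun c hc b => sumK_mem Y b
      (fun y hy => (Sym.stable_Cc h).g_mem _ y hy) hc) _ hx fun y hy => ?_
    exact sumK_fix Y (by linear_combination h2) (by linear_combination h2) x hy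
  A_mem n x hx := by
    have h2 := hm.two
    refine mem_Zr_of_eq Y (fun c hc b => sumK_mem Y b
      (fun y hy => (Sym.stable_Cc h).g_mem _ y hy) hc) _ hx fun y hy => ?_
    refine sumK_fix Y ?_ ?_ x hy
    · push_cast
      linear_combination h2
    · push_cast
      linear_combination 2 * h2

/-- the relative version: `S = Zr X (Fix B)`, `A = Zr X (Fix A)`, `B ⊆ A` -/
theorem tri4_rel (h : Y.Good X) (hX : ArcGood Y H X) {B : Set E} (hA : Y.GoodSub X A)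
    (hB : Y.GoodSub X B) (hBA : B ⊆ A) (hHA : ∀ r ∈ Icc (0 : ℝ) 1, ∀ x ∈ A, H r x ∈ A)
    (hHB : ∀ r ∈ Icc (0 : ℝ) 1, ∀ x ∈ B, H r x ∈ B) :
    Tri4 (circOf Y hm hH) (Zr Y.a Y.χ X (FixM B Y.g 2)) (Zr Y.a Y.χ X (FixM A Y.g 2)) :=
  (tri4 hm hH h hX hA hHA).mono
    (st_Zr Y hm hH h hX (goodSub_fix hB).sub (goodSub_fix hB).mg (fix_arc hH hHB))
    Zr_le_Cc (Zr_anti Subset.rfl (fix_mono hBA 2))

end Four

end Vale.Agent.P216.S4

namespace Vale.Agent.P216.RotS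

open AS B633 DV Circ.PSt S4 H773 H941S

variable {Λ : Type} [PseudoMetricSpace Λ] {S : GSys Λ} (R : RotS S)
  (k : Type) [Field k] (hm : Ord k 4)

/-- the localisation data of `X t` -/
theorem tri4 (t : ℝ) : Tri4 (R.circM k hm) (Cc (S.sym k 4 hm.pos).a (S.sym k 4 hm.pos).χ (S.X t))
    (Zr (S.sym k 4 hm.pos).a (S.sym k 4 hm.pos).χ (S.X t) (FixM (S.X t) (S.rot 4) 2)) :=
  S4.tri4 hm _ (S.good k 4 hm.pos t) (R.arcGood k 4 hm.pos t)
    (S.goodSub k 4 hm.pos (le_refl t)) (R.arcGood k 4 hm.pos t).maps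

/-- the localisation data of `X s` in the world `X t` -/
theorem tri4W {s t : ℝ} (h : s ≤ t) :
    Tri4 (R.circM k hm) (Cc (S.sym k 4 hm.pos).a (S.sym k 4 hm.pos).χ (S.X t))
    (Zr (S.sym k 4 hm.pos).a (S.sym k 4 hm.pos).χ (S.X t) (FixM (S.X s) (S.rot 4) 2)) :=
  S4.tri4 hm _ (S.good k 4 hm.pos t) (R.arcGood k 4 hm.pos t)
    (S.goodSub k 4 hm.pos h) (R.arcGood k 4 hm.pos s).maps

/-- the localisation data of `(X t, X s)` -/
theorem tri4Q {s t : ℝ} (h : s ≤ t) :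
    Tri4 (R.circM k hm)
    (Zr (S.sym k 4 hm.pos).a (S.sym k 4 hm.pos).χ (S.X t) (FixM (S.X s) (S.rot 4) 2))
    (Zr (S.sym k 4 hm.pos).a (S.sym k 4 hm.pos).χ (S.X t) (FixM (S.X t) (S.rot 4) 2)) :=
  S4.tri4_rel hm _ (S.good k 4 hm.pos t) (R.arcGood k 4 hm.pos t)
    (S.goodSub k 4 hm.pos (le_refl t)) (S.goodSub k 4 hm.pos h) (S.mono s t h)
    (R.arcGood k 4 hm.pos t).maps (R.arcGood k 4 hm.pos s).maps

end Vale.Agent.P216.RotS
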