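import Vale.Agent.P216.DV706.SLev
import Vale.Agent.P216.DV706.WOpOf

/-!
# The circle data of a `Sym` of order `m` when `m = 0` and `0 + 1 + ... + m = 0` in `k`

The case used: `m = 4`, `k` of characteristic `2` (`4 = 0`, `10 = 0`).
`circOf` is `DV.circSym` with these two hypotheses instead of `[CharP k p]`, `2 < p`.
-/

open Set Finset

namespace Vale.Agent.P216.S4

open Vale.Agent.P216.AS Vale.Agent.P216.DV Vale.Agent.P216.DV965

/-- the hypotheses on the order `m` of the rotation -/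
structure Ord (k : Type) [Field k] (m : ℕ) : Prop where
  pos : 0 < m
  cast : (m : k) = 0
  tri : DV.tri k m = 0

theorem ord_four {k : Type} [Field k] (h2 : (2 : k) = 0) : Ord k 4 where
  pos := by norm_num
  cast := by
    have : ((4 : ℕ) : k) = 2 * 2 := by norm_num
    rw [this, h2, zero_mul]
  tri := by
    have : DV.tri k 4 = 2 * 5 := by
      rw [DV.tri]
      norm_num [Finset.sum_range_succ]
    rw [this, h2, zero_mul]

/-- an odd prime `p = char k` -/
theorem ord_prime {k : Type} [Field k] {p : ℕ} [CharP k p] (hp : 0 < p) (h2 : 2 < p) :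
    Ord k p where
  pos := hp
  cast := CharP.cast_eq_zero k p
  tri := by rw [tri_p h2, DV.tri]; simp

section Ring

variable {k : Type} [Field k] {R : Type} [Ring R] [Algebra k R] {m : ℕ}

theorem tri_zero : DV.tri k 0 = 0 := by rw [DV.tri]; simp

/-- `A (1 - g) = nm` -/
theorem sumA_mul (hm : Ord k m) {g : R} (hg : g ^ m = 1) :
    (∑ i ∈ Finset.range m, (i : k) • g ^ i) * (1 - g) = H609.nm m g := by
  rw [sum_mul_sub hg (fun i => (i : k)) (by rw [hm.cast, Nat.cast_zero]), H609.nm]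
  have h1 : ∀ i ∈ Finset.range m, (((i + 1 : ℕ) : k) - (i : k)) • g ^ (i + 1) =
      (1 : k) • g ^ (i + 1) := by
    intro i _
    congr 1
    push_cast
    ring
  rw [Finset.sum_congr rfl h1, sum_shift hg (fun _ => (1 : k)) rfl]
  simp

/-- `B (1 - g) = A` -/
theorem sumB_mul (hm : Ord k m) {g : R} (hg : g ^ m = 1) :
    (∑ i ∈ Finset.range m, DV.tri k i • g ^ i) * (1 - g) =
      ∑ i ∈ Finset.range m, (i : k) • g ^ i := by
  rw [sum_mul_sub hg (DV.tri k) (by rw [hm.tri, tri_zero])]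
  simp only [tri_succ]
  exact sum_shift hg (fun i => (i : k)) (by rw [hm.cast, Nat.cast_zero])

end Ring

variable {E : Type} [PseudoMetricSpace E] {k : Type} [Field k] {I : Type} {m : ℕ}

/-- **The circle data.** -/
noncomputable def circOf (Y : Sym E k I m) (hm : Ord k m) {H : ℝ → E → E}
    (hH : Arc Y.g H) : Circ Y.gcx where
  A := sumK Y fun i => (i : k)
  B := sumK Y (DV.tri k)
  Q := Qop k H
  d_A := d_sumK Y _
  d_B := d_sumK Y _
  A_sub n x := by
    have h := congrArg (fun T : Module.End k ((ASK E k).K n) => T x)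
      (sumA_mul hm (Y.gK_pow n))
    exact h
  sub_A n x := by
    have h := congrArg (fun T : Module.End k ((ASK E k).K n) => T x)
      (sumA_mul hm (Y.gK_pow n))
    have h' : (sumK Y (fun i => (i : k)) n) * (1 - Y.gK n) =
      (1 - Y.gK n) * (sumK Y (fun i => (i : k)) n) :=
      ((Commute.one_right _).sub_right (comm_sum (fun i => (i : k)) (Y.gK n))).eq
    change ((sumK Y (fun i => (i : k)) n) * (1 - Y.gK n)) x = _ at h
    rw [h'] at h
    exact h
  A_eq n x := by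
    have h := congrArg (fun T : Module.End k ((ASK E k).K n) => T x)
      (sumB_mul hm (Y.gK_pow n))
    exact h.symm
  B_g n x := by
    have h := congrArg (fun T : Module.End k ((ASK E k).K n) => T x)
      (comm_sum (p := m) (DV.tri k) (Y.gK n)).eq
    exact h
  B_nm n x := by
    have h0 : Commute (sumK Y (DV.tri k) n) (H609.nm m (Y.gK n)) :=
      Commute.sum_right _ _ _ fun i _ => (comm_sum (p := m) (DV.tri k) (Y.gK n)).pow_right i
    have h := congrArg (fun T : Module.End k ((ASK E k).K n) => T x) h0.eq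
    exact h
  Q_d0 x := hH.Q_d_zero x
  Q_d n x := hH.d_Q x
  Q_g n x := hH.Q_g x
  Q_nm n x := hH.Q_nm x
  Q_A n x := Q_sumK Y _ hH x

section

variable (Y : Sym E k I m) (hm : Ord k m) {H : ℝ → E → E} (hH : Arc Y.g H)

theorem circOf_A (n : ℕ) (x : (ASK E k).K n) : (circOf Y hm hH).A n x =
    ∑ i ∈ Finset.range m, (i : k) • (Y.gK n ^ i) x := sumK_apply Y _ n x

theorem circOf_Q (n : ℕ) : (circOf Y hm hH).Q n = Qop k H n := rfl

theorem st_Cc {X : Set E} (h : Y.Good X) (hX : ArcGood Y H X) :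
    (circOf Y hm hH).St (Cc Y.a Y.χ X) where
  toStable := Sym.stable_Cc h
  A_mem _ _ hx := sumK_mem Y _ (fun y hy => (Sym.stable_Cc h).g_mem _ y hy) hx
  B_mem _ _ hx := sumK_mem Y _ (fun y hy => (Sym.stable_Cc h).g_mem _ y hy) hx
  Q_mem _ _ hx := hq_mem_Cc hX.maps hX.comm hx

theorem st_Zr {X A : Set E} (h : Y.Good X) (hX : ArcGood Y H X) (hA : A ⊆ X)
    (hg : MapsTo Y.g A A) (hHA : ∀ r ∈ Icc (0 : ℝ) 1, ∀ x ∈ A, H r x ∈ A) :
    (circOf Y hm hH).St (Zr Y.a Y.χ X A) where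
  toStable := Sym.stable_Zr h hA hg
  A_mem _ _ hx := sumK_mem Y _ (fun y hy => (Sym.stable_Zr h hA hg).g_mem _ y hy) hx
  B_mem _ _ hx := sumK_mem Y _ (fun y hy => (Sym.stable_Zr h hA hg).g_mem _ y hy) hx
  Q_mem _ _ hx := hq_mem_Zr hX.maps hHA (hX.uc.mono hA) hX.comm hx

/-- the absolute pair -/
theorem pst_PA {X : Set E} (h : Y.Good X) (hX : ArcGood Y H X) :
    (circOf Y hm hH).PSt (Sym.PA h) :=
  ⟨st_Cc Y hm hH h hX, st_Zr Y hm hH h hX Subset.rfl h.mg hX.maps⟩

/-- the relative pair -/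
theorem pst_PR {X A B : Set E} (h : Y.Good X) (hX : ArcGood Y H X) (hA : Y.GoodSub X A)
    (hB : Y.GoodSub X B) (hBA : B ⊆ A) (hHA : ∀ r ∈ Icc (0 : ℝ) 1, ∀ x ∈ A, H r x ∈ A)
    (hHB : ∀ r ∈ Icc (0 : ℝ) 1, ∀ x ∈ B, H r x ∈ B) :
    (circOf Y hm hH).PSt (Sym.PR h hA hB hBA) :=
  ⟨st_Zr Y hm hH h hX hB.sub hB.mg hHB, st_Zr Y hm hH h hX hA.sub hA.mg hHA⟩

/-- the pair of a subset -/
theorem pst_PM {X A : Set E} (h : Y.Good X) (hX : ArcGood Y H X) (hA : Y.GoodSub X A)
    (hHA : ∀ r ∈ Icc (0 : ℝ) 1, ∀ x ∈ A, H r x ∈ A) :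
    (circOf Y hm hH).PSt (Sym.PM h hA) :=
  ⟨st_Cc Y hm hH h hX, st_Zr Y hm hH h hX hA.sub hA.mg hHA⟩

/-- The reversal anticommutes with `A`. -/
theorem circOf_rcomp : (circOf Y hm hH).RComp Y.rev := by
  intro n x
  have h1 := Circ.r_sum_g (Y.gK n) (Y.rK n) m hm.cast
    (fun x => LinearMap.congr_fun (Y.gK_pow n) x)
    (fun x => LinearMap.congr_fun (Y.gK_rK_gK n) x) x
  rw [circOf_A, circOf_A]
  exact h1

end

end Vale.Agent.P216.S4
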