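import Vale.Agent.P216.S4.Fix4

/-!
# Maps between two circle spaces (possibly with different symmetries)

`CMap Y Y' X X' f`: `f : X → X'` uniformly continuous, `f g = g' f`, and `f^*` of an equivariant
cochain is equivariant.  `CMap.isGMor` (absolute), `CMap.isGMorR` (pairs), `CMap.comm_A`
(so `Circ.PSt.mapF`, `πF_mapF`, `uF_mapF`, `dF_mapH` apply), and `CMap.fix`.
-/

open Set Finset

namespace Vale.Agent.P216.S4

open Vale.Agent.P216.AS Vale.Agent.P216.DV Vale.Agent.P216.DV965 Vale.Agent.P216.H773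
  Vale.Agent.P216.H941S

variable {E E' : Type} [PseudoMetricSpace E] [PseudoMetricSpace E'] {k : Type} [Field k]
  {I I' : Type} {m : ℕ}

/-- a map between circle spaces -/
structure CMap (Y : Sym E k I m) (Y' : Sym E' k I' m) (X : Set E) (X' : Set E') (f : E → E') :
    Prop where
  maps : MapsTo f X X'
  uc : ∀ ε > 0, ∃ δ > 0, ∀ x ∈ X, ∀ y ∈ X, dist x y < δ → dist (f x) (f y) < ε
  eqv : ∀ {n : ℕ} {c : (Fin n → E') → k}, Eqv Y'.a Y'.χ X' c → Eqv Y.a Y.χ X (P265.AS.pb f c)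
  rot : ∀ x ∈ X, f (Y.g x) = Y'.g (f x)

namespace CMap

variable {Y : Sym E k I m} {Y' : Sym E' k I' m} {X : Set E} {X' : Set E'} {f : E → E'}

/-- from an `IsMap` -/
theorem of_isMap {Y : Sym E k I m} {Y' : Sym E' k I m} (hχ : Y'.χ = Y.χ)
    (h : IsMap Y.a Y'.a X X' f) (hr : ∀ x ∈ X, f (Y.g x) = Y'.g (f x)) :
    CMap Y Y' X X' f where
  maps := h.mapsX
  uc := h.uc
  eqv hc := by
    rw [hχ] at hc
    exact h.pb_eqv hc
  rot := hr

/-- the target has no symmetries, the source has symmetries of sign `1` which `f` forgets -/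
theorem of_inv [IsEmpty I'] (hχ : ∀ i, Y.χ i = 1) (hm : MapsTo f X X')
    (huc : ∀ ε > 0, ∃ δ > 0, ∀ x ∈ X, ∀ y ∈ X, dist x y < δ → dist (f x) (f y) < ε)
    (ha : ∀ i, ∀ x ∈ X, f (Y.a i x) = f x) (hr : ∀ x ∈ X, f (Y.g x) = Y'.g (f x)) :
    CMap Y Y' X X' f where
  maps := hm
  uc := huc
  eqv {n c} _ i x hx := by
    change c (f ∘ (Y.a i ∘ x)) = Y.χ i * c (f ∘ x)
    rw [hχ, one_mul]
    congr 1
    funext j
    exact ha i _ (hx j)
  rot := hr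

variable (h : CMap Y Y' X X' f)

include h in
theorem pb_van {A : Set E} {A' : Set E'} (hA : A ⊆ X) (hfA : MapsTo f A A') {n : ℕ}
    {c : (Fin n → E') → k} (hc : Van A' c) : Van A (P265.AS.pb f c) := by
  obtain ⟨ε, hε, h1⟩ := hc
  obtain ⟨δ, hδ, h2⟩ := h.uc ε hε
  exact ⟨δ, hδ, fun x hx => h1 _ ⟨fun i => hfA (hx.1 i),
    fun i j => h2 _ (hA (hx.1 i)) _ (hA (hx.1 j)) (hx.2 i j)⟩⟩

include h in
theorem isMor_Zr {A B : Set E} {A' B' : Set E'} (hA : A ⊆ X) (hB : B ⊆ X) (hfA : MapsTo f A A')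
    (hfB : MapsTo f B B') :
    IsMor (Zr Y'.a Y'.χ X' A') (Zr Y'.a Y'.χ X' B') (Zr Y.a Y.χ X A) (Zr Y.a Y.χ X B)
      (pbK k f) :=
  IsMor.of_comm (fun hc => ⟨h.eqv hc.1, h.pb_van hA hfA hc.2⟩)
    (fun hc => ⟨h.eqv hc.1, h.pb_van hB hfB hc.2⟩) (pbK_d f)

include h in
theorem isMor_Cc {B : Set E} {B' : Set E'} (hB : B ⊆ X) (hfB : MapsTo f B B') :
    IsMor (Cc Y'.a Y'.χ X') (Zr Y'.a Y'.χ X' B') (Cc Y.a Y.χ X) (Zr Y.a Y.χ X B) (pbK k f) :=
  IsMor.of_comm (fun hc => h.eqv hc) (fun hc => ⟨h.eqv hc.1, h.pb_van hB hfB hc.2⟩) (pbK_d f)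

theorem mem_Zr_of_zero' (hY : Y.Good X) {A : Set E} (hA : A ⊆ X) {n : ℕ} {c : (ASK E k).K n}
    (hc : ∀ x : Fin (n + 1) → E, (∀ i, x i ∈ X) → c x = 0) : c ∈ (Zr Y.a Y.χ X A).S n :=
  ⟨fun i x hx => by
    have h3 : c (Y.a i ∘ x) = 0 := hc _ fun j => hY.ma i (hx j)
    rw [hc x hx, h3, mul_zero], 1, one_pos, fun x hx => hc x fun i => hA (hx.1 i)⟩

include h in
theorem iterate (hg : MapsTo Y.g X X) (i : ℕ) {x : E} (hx : x ∈ X) :
    f (Y.g^[i] x) = Y'.g^[i] (f x) := by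
  induction i generalizing x with
  | zero => rfl
  | succ i ih => rw [Function.iterate_succ_apply, Function.iterate_succ_apply, ih (hg hx),
      h.rot x hx]

include h in
/-- `f^*` commutes with `∑ b i gⁱ` on the tuples of `X` -/
theorem sumK_pbK (hg : MapsTo Y.g X X) (b : ℕ → k) {n : ℕ} (c : (ASK E' k).K n)
    {x : Fin (n + 1) → E} (hx : ∀ i, x i ∈ X) :
    sumK Y b n (pbK k f n c) x = pbK k f n (sumK Y' b n c) x := by
  rw [sumK_eval]
  change _ = sumK Y' b n c (f ∘ x)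
  rw [sumK_eval]
  refine Finset.sum_congr rfl fun i _ => ?_
  change b i * c (f ∘ (Y.g^[i] ∘ x)) = b i * c (Y'.g^[i] ∘ (f ∘ x))
  have h4 : f ∘ (Y.g^[i] ∘ x) = Y'.g^[i] ∘ (f ∘ x) := funext fun j => h.iterate hg i (hx j)
  rw [h4]

include h in
theorem comm_g' (hY : Y.Good X) {A : Set E} (hA : A ⊆ X) {n : ℕ} (c : (ASK E' k).K n) :
    Y.gcx.g n (pbK k f n c) - pbK k f n (Y'.gcx.g n c) ∈ (Zr Y.a Y.χ X A).S n :=
  mem_Zr_of_zero' hY hA fun x hx => by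
    change c (f ∘ (Y.g ∘ x)) - c (Y'.g ∘ (f ∘ x)) = 0
    have h4 : f ∘ (Y.g ∘ x) = Y'.g ∘ (f ∘ x) := funext fun j => h.rot _ (hx j)
    rw [h4, sub_self]

include h in
theorem comm_nm' (hY : Y.Good X) {A : Set E} (hA : A ⊆ X) {n : ℕ} (c : (ASK E' k).K n) :
    Y.gcx.nm n (pbK k f n c) - pbK k f n (Y'.gcx.nm n c) ∈ (Zr Y.a Y.χ X A).S n :=
  mem_Zr_of_zero' hY hA fun x hx => by
    rw [nm_eq_sumK, nm_eq_sumK]
    change sumK Y _ n (pbK k f n c) x - pbK k f n (sumK Y' _ n c) x = 0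
    rw [h.sumK_pbK hY.mg _ _ hx, sub_self]

include h in
/-- absolute pairs -/
theorem isGMor (hY : Y.Good X) (hY' : Y'.Good X') :
    IsGMor (Sym.PA hY') (Sym.PA hY) (pbK k f) where
  toIsMor := h.isMor_Cc Subset.rfl h.maps
  comm_g {_ c} _ := h.comm_g' hY Subset.rfl c
  comm_nm {_ c} _ := h.comm_nm' hY Subset.rfl c

include h in
/-- relative pairs -/
theorem isGMorR (hY : Y.Good X) (hY' : Y'.Good X') {A B : Set E} {A' B' : Set E'}
    (hA : Y.GoodSub X A) (hB : Y.GoodSub X B) (hBA : B ⊆ A) (hA' : Y'.GoodSub X' A')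
    (hB' : Y'.GoodSub X' B') (hBA' : B' ⊆ A') (hfA : MapsTo f A A') (hfB : MapsTo f B B') :
    IsGMor (Sym.PR hY' hA' hB' hBA') (Sym.PR hY hA hB hBA) (pbK k f) where
  toIsMor := h.isMor_Zr hB.sub hA.sub hfB hfA
  comm_g {_ c} _ := h.comm_g' hY hA.sub c
  comm_nm {_ c} _ := h.comm_nm' hY hA.sub c

include h in
/-- `A` commutes with `f^*` modulo the cochains vanishing on `A ⊆ X` -/
theorem comm_A (hm : Ord k m) {H : ℝ → E → E} {H' : ℝ → E' → E'} (hH : Arc Y.g H)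
    (hH' : Arc Y'.g H') (hY : Y.Good X) {A : Set E} (hA : A ⊆ X) {n : ℕ}
    (c : (ASK E' k).K n) :
    (circOf Y hm hH).A n (pbK k f n c) - pbK k f n ((circOf Y' hm hH').A n c) ∈
      (Zr Y.a Y.χ X A).S n :=
  mem_Zr_of_zero' hY hA fun x hx => by
    change sumK Y _ n (pbK k f n c) x - pbK k f n (sumK Y' _ n c) x = 0
    rw [h.sumK_pbK hY.mg _ _ hx, sub_self]

include h in
/-- fixed sets -/
theorem fix {A : Set E} {A' : Set E'} (hg : MapsTo Y.g X X) (hA : A ⊆ X) (hfA : MapsTo f A A')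
    (j : ℕ) : MapsTo f (FixM A Y.g j) (FixM A' Y'.g j) := fun x hx =>
  ⟨hfA hx.1, by rw [← h.iterate hg j (hA hx.1), hx.2]⟩

include h in
/-- the map on `F` -/
noncomputable def pullF (hm : Ord k m) {H : ℝ → E → E} {H' : ℝ → E' → E'} (hH : Arc Y.g H)
    (hH' : Arc Y'.g H') (hY : Y.Good X) (hY' : Y'.Good X') (hX : ArcGood Y H X)
    (hX' : ArcGood Y' H' X') (n : ℕ) :
    (pst_PA Y' hm hH' hY' hX').F n →ₗ[k] (pst_PA Y hm hH hY hX).F n :=
  Circ.PSt.mapF (pst_PA Y' hm hH' hY' hX') (pst_PA Y hm hH hY hX) (h.isGMor hY hY')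
    (fun {_ c} _ => h.comm_A hm hH hH' hY Subset.rfl c) n

end CMap

end Vale.Agent.P216.S4
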